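import Mathlib

/-!
Row (K7) of the all-beta text: the choice of the number of layers and the real inequalities.
-/

namespace Vale.Agent.P146.H401

lemma sqrt_young {ε E : ℝ} (hε : 0 < ε) (hE : 0 ≤ E) : √E ≤ ε + E / (4 * ε) := by
  have h1 := Real.sq_sqrt hE
  have h2 := sq_nonneg (√E - 2 * ε)
  have h3 : √E * (4 * ε) ≤ (ε + E / (4 * ε)) * (4 * ε) := by
    have e : (ε + E / (4 * ε)) * (4 * ε) = 4 * ε ^ 2 + E := by
      field_simp
    rw [e]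
    nlinarith
  exact le_of_mul_le_mul_right h3 (by positivity)

lemma sqrt_add_le' {a b : ℝ} (ha : 0 ≤ a) (hb : 0 ≤ b) : √(a + b) ≤ √a + √b := by
  apply Real.sqrt_le_iff.2
  refine ⟨by positivity, ?_⟩
  have h1 := Real.sq_sqrt ha
  have h2 := Real.sq_sqrt hb
  have h3 : 0 ≤ √a * √b := by positivity
  nlinarith

/-- the number of layers -/
lemma ex_layers {t : ℝ} (ht : 1 ≤ t) : ∃ J : ℕ, 1 ≤ J ∧ ∀ N : ℝ, N = (J : ℝ) + 1 →
    5 / (4 * N) + √(25 / (4 * N)) ≤ 15 / (4 * t) := by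
  obtain ⟨J, hJ⟩ := exists_nat_ge (t ^ 2)
  have hJ1 : (1 : ℝ) ≤ J := (by nlinarith : (1 : ℝ) ≤ t ^ 2).trans hJ
  refine ⟨J, by exact_mod_cast hJ1, fun N hN => ?_⟩
  have hN1 : t ^ 2 ≤ N := by linarith
  have ht0 : 0 < t := by linarith
  have hN0 : 0 < N := lt_of_lt_of_le (by positivity) hN1
  have h1 : 5 / (4 * N) ≤ 5 / (4 * t) := by
    apply div_le_div_of_nonneg_left (by norm_num) (by positivity)
    nlinarith
  have h2 : √(25 / (4 * N)) ≤ 5 / (2 * t) := by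
    apply Real.sqrt_le_iff.2
    refine ⟨by positivity, ?_⟩
    have e : (5 / (2 * t)) ^ 2 = 25 / (4 * t ^ 2) := by
      field_simp
      ring
    rw [e]
    apply div_le_div_of_nonneg_left (by norm_num) (by positivity)
    linarith
  have h3 : 5 / (4 * t) + 5 / (2 * t) = 15 / (4 * t) := by
    field_simp
    ring
  linarith

/-- **The numbers of (K7).** -/
theorem k7_num {c0 C β : ℝ} (hc : 0 < c0) (hC : 0 < C) (hβ : 0 < β) :
    ∃ (J : ℕ) (η C7 : ℝ), 1 ≤ J ∧ 0 < η ∧ 0 < C7 ∧ ∀ (N PD M S2 DS om D0 : ℝ), N = (J : ℝ) + 1 →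
      0 ≤ DS → 0 ≤ om → 0 ≤ D0 → S2 ≤ η → M ≤ 5 / (4 * N) →
      PD ≤ √(5 * (5 / (4 * N)) + (96 * N * (DS + √(5 * N * DS)) +
        12 * (2 * N ^ 2 / β ^ 2 * om + D0))) →
      -c0 + C * (M + PD + S2 + D0) ≤ -(c0 / 2) + C7 * (DS + om + D0) := by
  set t : ℝ := 1 + 15 * C / c0 with ht
  have ht1 : 1 ≤ t := by
    have : 0 < 15 * C / c0 := by positivity
    linarith
  have ht0 : 0 < t := by linarith
  obtain ⟨J, hJ, hJt⟩ := ex_layers ht1
  obtain ⟨N, hN⟩ : ∃ N : ℝ, N = (J : ℝ) + 1 := ⟨_, rfl⟩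
  have hN0 : 0 < N := by rw [hN]; positivity
  obtain ⟨ε1, hε1⟩ : ∃ ε1 : ℝ, ε1 = c0 / (16 * C) := ⟨_, rfl⟩
  obtain ⟨ε2, hε2⟩ : ∃ ε2 : ℝ, ε2 = c0 ^ 2 / (6144 * C ^ 2 * N) := ⟨_, rfl⟩
  have h1 : 0 < ε1 := by rw [hε1]; positivity
  have h2 : 0 < ε2 := by rw [hε2]; positivity
  refine ⟨J, c0 / (16 * C), 4 * C ^ 2 / c0 * (96 * N * (1 + 5 * N / (4 * ε2)) +
    24 * N ^ 2 / β ^ 2 + 12) + C, hJ, by positivity, by positivity, ?_⟩
  intro N' PD M S2 DS om D0 hN' hDS hom hD0 hS2 hM hPD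
  have hNN : N' = N := by rw [hN', hN]
  subst hNN
  have hJN := hJt N' hN
  have hE0 : 0 ≤ 96 * N' * (DS + √(5 * N' * DS)) + 12 * (2 * N' ^ 2 / β ^ 2 * om + D0) := by
    positivity
  have hPD2 : PD ≤ √(25 / (4 * N')) + (ε1 + (96 * N' * (DS + √(5 * N' * DS)) +
      12 * (2 * N' ^ 2 / β ^ 2 * om + D0)) / (4 * ε1)) := by
    refine hPD.trans ((Real.sqrt_le_sqrt (le_of_eq ?_)).trans
      ((sqrt_add_le' (by positivity) hE0).trans
        (add_le_add le_rfl (sqrt_young h1 hE0))))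
    congr 1
    ring
  have hy := sqrt_young h2 (show 0 ≤ 5 * N' * DS by positivity)
  have hE1 : 96 * N' * (DS + √(5 * N' * DS)) + 12 * (2 * N' ^ 2 / β ^ 2 * om + D0) ≤
      96 * N' * ε2 + (96 * N' * (1 + 5 * N' / (4 * ε2)) + 24 * N' ^ 2 / β ^ 2 + 12) *
        (DS + om + D0) := by
    have a1 : 96 * N' * √(5 * N' * DS) ≤ 96 * N' * (ε2 + 5 * N' * DS / (4 * ε2)) :=
      mul_le_mul_of_nonneg_left hy (by positivity)
    have a2 : 5 * N' * DS / (4 * ε2) = 5 * N' / (4 * ε2) * DS := by ring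
    rw [a2] at a1
    have a3 : 0 ≤ 96 * N' * (1 + 5 * N' / (4 * ε2)) * (om + D0) := by positivity
    have a4 : 0 ≤ 24 * N' ^ 2 / β ^ 2 * (DS + D0) := by positivity
    have a5 : 0 ≤ 12 * (DS + om) := by positivity
    have a6 : 12 * (2 * N' ^ 2 / β ^ 2 * om + D0) = 24 * N' ^ 2 / β ^ 2 * om + 12 * D0 := by ring
    rw [a6]
    nlinarith
  have hdiv : (96 * N' * (DS + √(5 * N' * DS)) + 12 * (2 * N' ^ 2 / β ^ 2 * om + D0)) / (4 * ε1) =
      4 * C / c0 * (96 * N' * (DS + √(5 * N' * DS)) + 12 * (2 * N' ^ 2 / β ^ 2 * om + D0)) := by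
    rw [hε1]
    field_simp
    ring
  rw [hdiv] at hPD2
  have h4 : 4 * C / c0 * (96 * N' * (DS + √(5 * N' * DS)) +
      12 * (2 * N' ^ 2 / β ^ 2 * om + D0)) ≤ 4 * C / c0 * (96 * N' * ε2) + 4 * C / c0 *
        ((96 * N' * (1 + 5 * N' / (4 * ε2)) + 24 * N' ^ 2 / β ^ 2 + 12) * (DS + om + D0)) := by
    have := mul_le_mul_of_nonneg_left hE1 (show 0 ≤ 4 * C / c0 by positivity)
    linarith
  have h5 : C * (4 * C / c0 * (96 * N' * ε2)) = c0 / 16 := by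
    rw [hε2]
    field_simp
    ring
  have h6 : C * ε1 = c0 / 16 := by
    rw [hε1]
    field_simp
  have h7 : C * (5 / (4 * N') + √(25 / (4 * N'))) ≤ c0 / 4 := by
    refine (mul_le_mul_of_nonneg_left hJN hC.le).trans ?_
    rw [ht, mul_div_assoc', div_le_iff₀ (by positivity)]
    have e : c0 / 4 * (4 * (1 + 15 * C / c0)) = c0 + 15 * C := by
      field_simp
    rw [e]
    linarith
  have h8 : C * S2 ≤ c0 / 16 := by
    refine (mul_le_mul_of_nonneg_left hS2 hC.le).trans (le_of_eq ?_)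
    field_simp
  have h9 : C * PD ≤ C * √(25 / (4 * N')) + c0 / 16 + c0 / 16 + 4 * C ^ 2 / c0 *
      ((96 * N' * (1 + 5 * N' / (4 * ε2)) + 24 * N' ^ 2 / β ^ 2 + 12) * (DS + om + D0)) := by
    have a1 := mul_le_mul_of_nonneg_left (hPD2.trans (add_le_add le_rfl (add_le_add le_rfl h4)))
      hC.le
    have a2 : C * (√(25 / (4 * N')) + (ε1 + (4 * C / c0 * (96 * N' * ε2) + 4 * C / c0 *
        ((96 * N' * (1 + 5 * N' / (4 * ε2)) + 24 * N' ^ 2 / β ^ 2 + 12) * (DS + om + D0))))) =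
        C * √(25 / (4 * N')) + C * ε1 + C * (4 * C / c0 * (96 * N' * ε2)) + 4 * C ^ 2 / c0 *
      ((96 * N' * (1 + 5 * N' / (4 * ε2)) + 24 * N' ^ 2 / β ^ 2 + 12) * (DS + om + D0)) := by
      ring
    rw [a2, h5, h6] at a1
    linarith
  have h10 : C * M ≤ C * (5 / (4 * N')) := mul_le_mul_of_nonneg_left hM hC.le
  have h11 : C * D0 ≤ C * (DS + om + D0) := mul_le_mul_of_nonneg_left (by linarith) hC.le
  have e : -c0 + C * (M + PD + S2 + D0) = -c0 + C * M + C * PD + C * S2 + C * D0 := by ring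
  rw [e]
  have e2 : (4 * C ^ 2 / c0 * (96 * N' * (1 + 5 * N' / (4 * ε2)) + 24 * N' ^ 2 / β ^ 2 + 12) + C) *
      (DS + om + D0) = 4 * C ^ 2 / c0 * ((96 * N' * (1 + 5 * N' / (4 * ε2)) +
        24 * N' ^ 2 / β ^ 2 + 12) * (DS + om + D0)) + C * (DS + om + D0) := by ring
  rw [e2]
  linarith

end Vale.Agent.P146.H401
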