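import Vale.Agent.P146.H401.K6
import Vale.Agent.P146.H401.K7n
import Vale.Agent.P146.H327.Deep6
import Vale.Agent.P146.H504.Cum9

/-!
Row (K7) of the all-beta text: the fourth derivative of the deep functional along the row `b`,
averaged over the Gaussian row, at every position.
-/

open MeasureTheory ProbabilityTheory

namespace Vale.Agent.P146.H401

open Vale.Agent.P157.Lv Vale.Agent.P157.Lv.Sy Vale.Agent.P146.H425 Vale.Agent.P146.R1
  Vale.Agent.P146.H325 Vale.Agent.P146.H332 Vale.Agent.P146.R1C Vale.Agent.P146.H327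
open Vale.Agent.P146.H722 (nuv)
open Vale.Agent.P146.H941 (gm)

set_option linter.unusedSectionVars false

/-- The input: the bound of the fourth derivative by the numbers of the deep system without the
row `b`, at every position (784's `kab_sk`). -/
def KabSk (β : ℝ) : Prop := ∃ c0 C : ℝ, 0 < c0 ∧ 0 < C ∧ ∀ {n : ℕ} {k : ℝ}, 0 < n → 0 < k →
  k ^ 2 * n = β ^ 2 → ∀ {J : ℕ} {m σ : ℕ → ℝ} {a : ℝ}, 1 ≤ J → Exs m J a → m 0 < 1 →
  (∀ i, i + 1 < J → m (i + 1) < m i) → ∑ j ∈ Finset.range J, σ j ^ 2 ≤ 1 →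
  ∀ {b : Fin n} {v : Fin n → ℝ} {lam : ℝ}, v b = 0 → 0 < lam → ∀ q : ℕ → ℝ, q J = 0 →
  (∀ i < J, q (i + 1) ≤ q i) → q 0 ≤ 1 → ∀ z : Pair n → ℝ,
  AvP 1 (row b) (fun u => iteratedDeriv 4
    (fun h : ℝ => FD (lz k SkS) m σ J (u + h • nuv b v)) 0) z ≤
  k ^ 4 * lam ^ 2 * (-c0 + C * (m (J - 1) +
    ∑ i ∈ Finset.range J, (R1.mp m i - m i) *
      PB b k m σ J i (fun τ τ' => |sgb v τ * sgb v τ' * Rb b τ τ' - q i|) z +
    ∑ j ∈ Finset.range J, σ j ^ 2 +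
    ∑ τ, TD (lz k (Sb b)) m σ (fun u => gm k (Sb b) u τ) J z * (Vb v lam τ ^ 2 - 1) ^ 2))

section

variable {n : ℕ} {b : Fin n} {v : Fin n → ℝ} {k lam x h τ β : ℝ} {m σ : ℕ → ℝ} {J : ℕ}

/-- the squared distance of `(v.σ)²` to `lam` -/
noncomputable def gv (v : Fin n → ℝ) (lam : ℝ) (τ : Fin n → ℤˣ) : ℝ :=
  ((∑ j, v j * H325.sp τ j) ^ 2 - lam) ^ 2

lemma gv_nonneg (τ : Fin n → ℤˣ) : 0 ≤ gv v lam τ := sq_nonneg _

lemma gv_flp (hvb : v b = 0) (τ : Fin n → ℤˣ) : gv v lam (flp b τ) = gv v lam τ := by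
  unfold gv
  have e : ∑ j, v j * H325.sp (flp b τ) j = ∑ j, v j * H325.sp τ j := by
    refine Finset.sum_congr rfl fun j _ => ?_
    by_cases hj : j = b
    · rw [hj, hvb, zero_mul, zero_mul]
    · rw [sp_flp_ne hj]
  rw [e]

lemma Vb_gv (hlam : 0 < lam) (τ : Fin n → ℤˣ) :
    (Vb v lam τ ^ 2 - 1) ^ 2 = (lam ^ 2)⁻¹ * gv v lam τ := by
  unfold Vb gv
  rw [div_pow, Real.sq_sqrt hlam.le]
  field_simp

/-- sums of deep averages -/
lemma sum_TD {κ X : Type} [Fintype κ] [DecidableEq κ] [Fintype X] [Nonempty X] [DecidableEq X]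
    (k : ℝ) (S : κ → X → ℝ) (hE : Exs m J x) (g : X → ℝ) (z : κ → ℝ) :
    ∑ τ, TD (lz k S) m σ (fun u => gm k S u τ) J z * g τ =
      TD (lz k S) m σ (H325.av k S g) J z := by
  have h2 : H325.av k S g = fun u => ∑ a, g a * gm k S u a := by
    funext u
    rw [H941.av_gm]
    exact Finset.sum_congr rfl fun a _ => mul_comm _ _
  have hG : ∀ a, EG fun u => gm k S u a := fun a =>
    EG.of_bdd (C := 1) ((H941.rt_lz k S).meas a) fun y => by
      rw [abs_of_nonneg ((H941.rt_lz k S).m0 y a)]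
      exact (H941.rt_lz k S).le_one y a
  rw [h2, R1.TD_lin (H332.c11_lz k S) Finset.univ g (fun a _ => hG a) J fun j hj => hE.pos j hj]
  exact Finset.sum_congr rfl fun a _ => mul_comm _ _

lemma TD_av_nonneg {κ X : Type} [Fintype κ] [DecidableEq κ] [Fintype X] [Nonempty X]
    [DecidableEq X] (k : ℝ) (S : κ → X → ℝ) (hE : Exs m J x) {g : X → ℝ} (hg : ∀ a, 0 ≤ g a)
    (z : κ → ℝ) : 0 ≤ TD (lz k S) m σ (H325.av k S g) J z :=
  TD_nonneg (c11_lz k S) (H325.eg_av k S g) (fun u => by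
    rw [H941.av_gm]
    exact Finset.sum_nonneg fun a _ => mul_nonneg ((H941.rt_lz k S).m0 u a) (hg a)) J
    (fun j hj => hE.pos j hj) z

/-- the second differences are nonnegative -/
lemma dsb_nonneg (hE : Exs m J x) (hh : 0 ≤ h) {i : ℕ} (hi : i < J) (hlh : h < m i)
    (hk1 : h / 2 * (σ i ^ 2 * (k ^ 2 * (n : ℝ) ^ 2)) ≤ 1) (z : Pair n → ℝ) :
    0 ≤ dsec (lz k (Sb b)) m σ J i h z := by
  have hmp : ∀ t < J, 0 < m t := fun t ht => hE.pos t ht
  have hBd : ∀ z, ∑ e, Dz k (Sb b) e z ^ 2 ≤ k ^ 2 * (n : ℝ) ^ 2 := by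
    intro z
    refine (H785.bd_lz k (Sb b) (fun e τ => ?_) z).trans ?_
    · unfold Sb
      split_ifs
      · simp
      · unfold SkS
        rw [abs_mul, H325.abs_sp, H325.abs_sp, one_mul]
    · refine mul_le_mul_of_nonneg_left ?_ (sq_nonneg k)
      have h3 : Fintype.card (Pair n) ≤ Fintype.card (Fin n × Fin n) :=
        Fintype.card_subtype_le _
      rw [Fintype.card_prod, Fintype.card_fin] at h3
      have h4 : (Fintype.card (Pair n) : ℝ) ≤ (n * n : ℕ) := by exact_mod_cast h3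
      rw [_root_.sq]
      push_cast at h4
      exact h4
  exact H785.dsec_nonneg (c11_lz k (Sb b)) (cv_lz k (Sb b)) hmp hi hh hlh hBd hk1 hE.x0
    hE.x1 (fun j _ hj => hE.ge j hj) z

/-- **The weighted errors of the levels.** -/
theorem sum_eB_le {N : ℝ} (hN : N = (J : ℝ) + 1) (hE : Exs m J x) (hn : 0 < n) (hk : 0 < k)
    (hβ : 0 < β) (hkn : k ^ 2 * n = β ^ 2) (hτ : τ ≠ 0) (hlam : 0 < lam) (hh : 0 < h)
    (hlh : ∀ i < J, h < m i) (ha : ∀ i < J, 1 / N ≤ m i)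
    (hk1 : h / 2 * (τ ^ 2 * (k ^ 2 * (n : ℝ) ^ 2)) ≤ 1)
    (hk0 : 1 / (24 * N) ≤ h / 4 * τ ^ 2 * (k ^ 2 * (n : ℝ) ^ 2)) (z : Pair n → ℝ) :
    ∑ i ∈ Finset.range J, (R1.mp m i - m i) *
        eB b v k lam (1 / N) h m (fun _ => τ) J i z ≤
      96 * N * (∑ l ∈ Finset.range J, dsec (lz k (Sb b)) m (fun _ => τ) J l h z +
          √(5 * N * ∑ l ∈ Finset.range J, dsec (lz k (Sb b)) m (fun _ => τ) J l h z)) +
        12 * (2 * N ^ 2 / β ^ 2 * (1 / (τ ^ 2 * lam)) +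
          ∑ a, TD (lz k (Sb b)) m (fun _ => τ) (fun u => gm k (Sb b) u a) J z *
            (Vb v lam a ^ 2 - 1) ^ 2) := by
  have hn' : (0 : ℝ) < n := by exact_mod_cast hn
  have hN0 : 0 < N := by rw [hN]; positivity
  have hτ2 : 0 < τ ^ 2 := by positivity
  set D0 := ∑ a, TD (lz k (Sb b)) m (fun _ => τ) (fun u => gm k (Sb b) u a) J z *
    (Vb v lam a ^ 2 - 1) ^ 2 with hD0
  set d : ℕ → ℝ := fun i => dsec (lz k (Sb b)) m (fun _ => τ) J i h z with hd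
  set DS := ∑ l ∈ Finset.range J, d l with hDS
  have hd0 : ∀ i < J, 0 ≤ d i := fun i hi => dsb_nonneg hE hh.le hi (hlh i hi) hk1 z
  have hDS0 : 0 ≤ DS := Finset.sum_nonneg fun i hi => hd0 i (Finset.mem_range.1 hi)
  have hdD : ∀ i < J, d i ≤ DS := fun i hi =>
    Finset.single_le_sum (f := d) (fun j hj => hd0 j (Finset.mem_range.1 hj))
      (Finset.mem_range.2 hi)
  have hD00 : 0 ≤ D0 := Finset.sum_nonneg fun a _ => by
    refine mul_nonneg ?_ (sq_nonneg _)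
    exact TD_nonneg (c11_lz k (Sb b)) (EG.of_bdd (C := 1) ((H941.rt_lz k (Sb b)).meas a)
      fun y => by
        rw [abs_of_nonneg ((H941.rt_lz k (Sb b)).m0 y a)]
        exact (H941.rt_lz k (Sb b)).le_one y a) (fun u => (H941.rt_lz k (Sb b)).m0 u a) J
      (fun j hj => hE.pos j hj) z
  -- every level
  have h1 : ∀ i < J, eB b v k lam (1 / N) h m (fun _ => τ) J i z ≤
      96 * N * (DS + √(5 * N * DS)) + 12 * (2 * N ^ 2 / β ^ 2 * (1 / (τ ^ 2 * lam)) + D0) := by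
    intro i hi
    unfold eB
    have hk0p : 0 < h / 4 * τ ^ 2 * (k ^ 2 * (n : ℝ) ^ 2) := lt_of_lt_of_le (by positivity) hk0
    have a1 : 4 / (h / 4 * τ ^ 2 * (k ^ 2 * (n : ℝ) ^ 2)) ≤ 96 * N := by
      rw [div_le_iff₀ hk0p]
      have := mul_le_mul_of_nonneg_left hk0 (show 0 ≤ 96 * N by positivity)
      have e : 96 * N * (1 / (24 * N)) = 4 := by
        field_simp
        norm_num
      linarith
    have a2 : d i + √(5 / (1 / N) * d i) ≤ DS + √(5 * N * DS) := by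
      have e : 5 / (1 / N) = 5 * N := by
        field_simp
      rw [e]
      exact add_le_add (hdD i hi) (Real.sqrt_le_sqrt
        (mul_le_mul_of_nonneg_left (hdD i hi) (by positivity)))
    have a3 : 4 / (h / 4 * τ ^ 2 * (k ^ 2 * (n : ℝ) ^ 2)) * (d i + √(5 / (1 / N) * d i)) ≤
        96 * N * (DS + √(5 * N * DS)) :=
      mul_le_mul a1 a2 (add_nonneg (hd0 i hi) (Real.sqrt_nonneg _)) (by positivity)
    have hmi := ha i hi
    have hmp : 1 / N ≤ R1.mp m i := hmi.trans (hE.step i hi)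
    have a4 : 1 / N ^ 2 ≤ R1.mp m i * m i := by
      have := mul_le_mul hmp hmi (by positivity) (le_trans (by positivity) hmp)
      refine le_trans (le_of_eq ?_) this
      field_simp
    have a5 : 2 / (n * lam) / (R1.mp m i * m i * τ ^ 2 * k ^ 2) ≤
        2 * N ^ 2 / β ^ 2 * (1 / (τ ^ 2 * lam)) := by
      have hX : 0 < 1 / N ^ 2 * τ ^ 2 * k ^ 2 := by positivity
      have hX2 : 1 / N ^ 2 * τ ^ 2 * k ^ 2 ≤ R1.mp m i * m i * τ ^ 2 * k ^ 2 := by
        rw [mul_assoc, mul_assoc (R1.mp m i * m i)]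
        exact mul_le_mul_of_nonneg_right a4 (by positivity)
      refine (div_le_div_of_nonneg_left (by positivity) hX hX2).trans (le_of_eq ?_)
      rw [← hkn]
      field_simp
    have a6 : 12 * (2 / (n * lam) / (R1.mp m i * m i * τ ^ 2 * k ^ 2) + D0) ≤
        12 * (2 * N ^ 2 / β ^ 2 * (1 / (τ ^ 2 * lam)) + D0) := by linarith
    exact add_le_add a3 a6
  set E := 96 * N * (DS + √(5 * N * DS)) + 12 * (2 * N ^ 2 / β ^ 2 * (1 / (τ ^ 2 * lam)) + D0)
    with hEdef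
  have hE0 : 0 ≤ E := by positivity
  have hp : ∀ i < J, 0 ≤ R1.mp m i - m i := fun i hi => sub_nonneg.2 (hE.step i hi)
  have hp1 : ∑ i ∈ Finset.range J, (R1.mp m i - m i) ≤ 1 := by
    have a1 : ∀ J, ∑ i ∈ Finset.range J, (R1.mp m i - m i) = 1 - R1.mp m J := by
      intro J
      induction J with
      | zero => simp [R1.mp]
      | succ J ih =>
        rw [Finset.sum_range_succ, ih]
        show 1 - R1.mp m J + (R1.mp m J - m J) = 1 - m J
        ring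
    rw [a1]
    rcases Nat.eq_zero_or_pos J with h0 | h0
    · subst h0
      simp [R1.mp]
    · obtain ⟨j, hj⟩ : ∃ j, J = j + 1 := ⟨J - 1, by omega⟩
      have := hE.pos j (by omega)
      rw [hj]
      show 1 - m j ≤ 1
      linarith
  calc ∑ i ∈ Finset.range J, (R1.mp m i - m i) *
        eB b v k lam (1 / N) h m (fun _ => τ) J i z ≤
        ∑ i ∈ Finset.range J, (R1.mp m i - m i) * E :=
        Finset.sum_le_sum fun i hi => mul_le_mul_of_nonneg_left (h1 i (Finset.mem_range.1 hi))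
          (hp i (Finset.mem_range.1 hi))
    _ = (∑ i ∈ Finset.range J, (R1.mp m i - m i)) * E := by rw [Finset.sum_mul]
    _ ≤ 1 * E := mul_le_mul_of_nonneg_right hp1 hE0
    _ = E := one_mul E

end

/-- the box of the exponents, as in 706's `DLay` -/
def Box (J : ℕ) (m : ℕ → ℝ) (h : ℝ) : Prop := ∀ l < J, ((J : ℝ) - l) / (J + 1) + h ≤ m l ∧
  m l + h ≤ ((J : ℝ) - l) / (J + 1) + 1 / (4 * ((J : ℝ) + 1))

section

variable {J : ℕ} {m : ℕ → ℝ} {h : ℝ}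

lemma Box.ge (H : Box J m h) (hh : 0 ≤ h) {l : ℕ} (hl : l < J) : 1 / ((J : ℝ) + 1) ≤ m l := by
  refine le_trans ?_ (H l hl).1
  have h1 : (1 : ℝ) ≤ (J : ℝ) - l := by
    have : (l : ℝ) + 1 ≤ J := by exact_mod_cast hl
    linarith
  have h2 : 1 / ((J : ℝ) + 1) ≤ ((J : ℝ) - l) / (J + 1) :=
    div_le_div_of_nonneg_right h1 (by positivity)
  linarith

lemma Box.lt (H : Box J m h) {l : ℕ} (hl : l < J) : h < m l := by
  have h1 := (H l hl).1
  have h2 : 0 < ((J : ℝ) - l) / (J + 1) := by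
    have : (l : ℝ) + 1 ≤ J := by exact_mod_cast hl
    have h3 : (0 : ℝ) < (J : ℝ) - l := by linarith
    positivity
  linarith

lemma Box.zero (H : Box J m h) (hh : 0 ≤ h) (hJ : 0 < J) : m 0 < 1 := by
  have h1 := (H 0 hJ).2
  have h2 : ((J : ℝ) - (0 : ℕ)) / (J + 1) + 1 / (4 * ((J : ℝ) + 1)) < 1 := by
    have : (0 : ℝ) < (J : ℝ) + 1 := by positivity
    rw [Nat.cast_zero, sub_zero, div_add_div _ _ this.ne' (by positivity), div_lt_one (by positivity)]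
    nlinarith
  linarith

lemma Box.anti (H : Box J m h) (hh : 0 < h) {i : ℕ} (hi : i + 1 < J) : m (i + 1) < m i := by
  have h1 := (H (i + 1) hi).2
  have h2 := (H i (by omega)).1
  have h3 : ((J : ℝ) - ((i + 1 : ℕ) : ℝ)) / (J + 1) + 1 / (4 * ((J : ℝ) + 1)) ≤
      ((J : ℝ) - i) / (J + 1) := by
    have h4 : (0 : ℝ) < (J : ℝ) + 1 := by positivity
    rw [div_add_div _ _ h4.ne' (by positivity), div_le_div_iff₀ (by positivity) h4]
    push_cast
    nlinarith [sq_nonneg ((J : ℝ) + 1)]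
  linarith

lemma Box.gap (H : Box J m h) (hh : 0 ≤ h) {i : ℕ} (hi : i < J) :
    R1.mp m i - m i ≤ 5 / (4 * ((J : ℝ) + 1)) := by
  have h4 : (0 : ℝ) < (J : ℝ) + 1 := by positivity
  cases i with
  | zero =>
    have h2 := (H 0 hi).1
    show 1 - m 0 ≤ _
    rw [Nat.cast_zero, sub_zero] at h2
    have h3 : 1 - (J : ℝ) / (J + 1) ≤ 5 / (4 * ((J : ℝ) + 1)) := by
      rw [sub_le_iff_le_add, div_add_div _ _ (by positivity) h4.ne', one_le_div (by positivity)]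
      nlinarith
    linarith
  | succ i =>
    have h1 := (H i (by omega)).2
    have h2 := (H (i + 1) hi).1
    show m i - m (i + 1) ≤ _
    have h3 : ((J : ℝ) - i) / (J + 1) + 1 / (4 * ((J : ℝ) + 1)) -
        ((J : ℝ) - ((i + 1 : ℕ) : ℝ)) / (J + 1) = 5 / (4 * ((J : ℝ) + 1)) := by
      push_cast
      field_simp
      ring
    linarith

lemma Box.last (H : Box J m h) (hh : 0 ≤ h) (hJ : 0 < J) : m (J - 1) ≤ 5 / (4 * ((J : ℝ) + 1)) := by
  have h1 := (H (J - 1) (by omega)).2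
  have h2 : ((J - 1 : ℕ) : ℝ) = J - 1 := by
    rw [Nat.cast_sub hJ, Nat.cast_one]
  rw [h2] at h1
  have h3 : ((J : ℝ) - (J - 1)) / (J + 1) + 1 / (4 * ((J : ℝ) + 1)) =
      5 / (4 * ((J : ℝ) + 1)) := by
    field_simp
    ring
  linarith

end

/-- **(K7)**: the fourth derivative along the row `b`, averaged over the Gaussian row, at every
position. -/
theorem k7 {β : ℝ} (hβ : 0 < β) (hK : KabSk β) : ∃ (J : ℕ) (η c0 C7 : ℝ), 1 ≤ J ∧ 0 < η ∧
    0 < c0 ∧ 0 < C7 ∧ ∀ {n : ℕ} {k : ℝ}, 0 < n → 0 < k → k ^ 2 * n = β ^ 2 →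
    ∀ {m : ℕ → ℝ} {τ h x : ℝ}, Exs m J x → τ ≠ 0 → J * τ ^ 2 ≤ η → 0 < h → Box J m h →
    1 / (24 * ((J : ℝ) + 1)) ≤ h / 4 * τ ^ 2 * (k ^ 2 * (n : ℝ) ^ 2) →
    h / 4 * τ ^ 2 * (k ^ 2 * (n : ℝ) ^ 2) ≤ 1 / 2 →
    ∀ {b : Fin n} {v : Fin n → ℝ} {lam : ℝ}, ∑ j, v j ^ 2 = 1 → v b = 0 → 0 < lam →
    ∀ z : Pair n → ℝ,
    AvP 1 (row b) (fun u => iteratedDeriv 4
      (fun r : ℝ => FD (lz k SkS) m (fun _ => τ) J (u + r • nuv b v)) 0) z ≤
    k ^ 4 * (-c0 * lam ^ 2 + C7 * (AvP 1 (row b)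
      (fun u => TD (lz k SkS) m (fun _ => τ) (H325.av k SkS (gv v lam)) J u) z +
      lam ^ 2 * (1 / (τ ^ 2 * lam) +
        ∑ l ∈ Finset.range J, dsec (lz k (Sb b)) m (fun _ => τ) J l h z))) := by
  obtain ⟨c0, C, hc0, hC, hkab⟩ := hK
  obtain ⟨J, η, C7, hJ, hη, hC7, hnum⟩ := k7_num hc0 hC hβ
  refine ⟨J, min η 1, c0 / 2, C7 * Real.exp (β ^ 2), hJ, by positivity, by positivity,
    by positivity, ?_⟩
  intro n k hn hk hkn m τ h x hE hτ hτη hh hB hk0 hk0' b v lam hv hvb hlam z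
  have hN : ((J : ℝ) + 1) = (J : ℝ) + 1 := rfl
  set N : ℝ := (J : ℝ) + 1 with hNd
  have hN0 : 0 < N := by positivity
  have hJ0 : 0 < J := hJ
  have hσ : ∑ j ∈ Finset.range J, (fun _ : ℕ => τ) j ^ 2 = J * τ ^ 2 := by
    simp
  have hs1 : ∑ j ∈ Finset.range J, (fun _ : ℕ => τ) j ^ 2 ≤ 1 := by
    rw [hσ]
    exact hτη.trans (min_le_right _ _)
  have hlh : ∀ i < J, h < m i := fun i hi => hB.lt hi
  have hma : ∀ i < J, 1 / N ≤ m i := fun i hi => hB.ge hh.le hi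
  have hk1 : h / 2 * (τ ^ 2 * (k ^ 2 * (n : ℝ) ^ 2)) ≤ 1 := by linarith
  have h1 := hkab hn hk hkn hJ hE (hB.zero hh.le hJ0) (fun i hi => hB.anti hh hi) hs1 hvb hlam
    (fun i => qB b k m (fun _ => τ) J i z)
    (by
      show qB b k m (fun _ => τ) J J z = 0
      unfold qB
      rw [if_neg (by omega)])
    (fun i _ => qB_anti hE hn z) (qB_le_one hE hn z) z
  have hp : ∀ i < J, 0 ≤ R1.mp m i - m i := fun i hi => sub_nonneg.2 (hE.step i hi)
  have hp1 : ∑ i ∈ Finset.range J, (R1.mp m i - m i) ≤ 1 := by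
    have a1 : ∀ J, ∑ i ∈ Finset.range J, (R1.mp m i - m i) = 1 - R1.mp m J := by
      intro J
      induction J with
      | zero => simp [R1.mp]
      | succ J ih =>
        rw [Finset.sum_range_succ, ih]
        show 1 - R1.mp m J + (R1.mp m J - m J) = 1 - m J
        ring
    rw [a1]
    obtain ⟨j, hj⟩ : ∃ j, J = j + 1 := ⟨J - 1, by omega⟩
    have := hE.pos j (by omega)
    rw [hj]
    show 1 - m j ≤ 1
    linarith
  have ha1 : 1 / N ≤ 1 := by
    rw [div_le_one hN0]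
    linarith [show (0 : ℝ) ≤ J by positivity]
  have h2 := d23 (σ := fun _ => τ) (v := v) (a := 1 / N) hE hn hk.ne' (fun _ _ => hτ) hv hvb hlam
    hh hlh (fun _ _ => hk1) (by positivity) ha1 hma hp hp1
    (fun i hi => hB.gap hh.le hi) z
  have h3 := sum_eB_le (b := b) (v := v) hN hE hn hk hβ hkn hτ hlam hh hlh hma hk1 hk0 z
  set DS := ∑ l ∈ Finset.range J, dsec (lz k (Sb b)) m (fun _ => τ) J l h z with hDS
  set D0 := ∑ a, TD (lz k (Sb b)) m (fun _ => τ) (fun u => gm k (Sb b) u a) J z *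
    (Vb v lam a ^ 2 - 1) ^ 2 with hD0
  set PD := ∑ i ∈ Finset.range J, (R1.mp m i - m i) * PB b k m (fun _ => τ) J i
    (fun τ' τ'' => |sgb v τ' * sgb v τ'' * Rb b τ' τ'' - qB b k m (fun _ => τ) J i z|) z with hPD
  have hDS0 : 0 ≤ DS := Finset.sum_nonneg fun i hi =>
    dsb_nonneg hE hh.le (Finset.mem_range.1 hi) (hlh i (Finset.mem_range.1 hi)) hk1 z
  have eD0 : D0 = (lam ^ 2)⁻¹ * TD (lz k (Sb b)) m (fun _ => τ)
      (H325.av k (Sb b) (gv v lam)) J z := by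
    rw [hD0, ← sum_TD k (Sb b) hE (gv v lam) z, Finset.mul_sum]
    exact Finset.sum_congr rfl fun a _ => by rw [Vb_gv hlam]; ring
  have hD00 : 0 ≤ D0 := by
    rw [eD0]
    exact mul_nonneg (by positivity) (TD_av_nonneg k (Sb b) hE gv_nonneg z)
  have hom : 0 ≤ 1 / (τ ^ 2 * lam) := by positivity
  have h4 := hnum N PD (m (J - 1)) (∑ j ∈ Finset.range J, (fun _ : ℕ => τ) j ^ 2) DS
    (1 / (τ ^ 2 * lam)) D0 rfl hDS0 hom hD00 (by rw [hσ]; exact hτη.trans (min_le_left _ _))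
    (hB.last hh.le hJ0) (h2.trans (Real.sqrt_le_sqrt (by linarith)))
  have h5 := k6_AvP (b := b) (σ := fun _ => τ) (z := z) (c := β ^ 2) hk.ne' hE (g := gv v lam)
    (fun a => gv_flp hvb a) gv_nonneg hs1 hkn.le
  set A := AvP 1 (row b) (fun u => TD (lz k SkS) m (fun _ => τ)
    (H325.av k SkS (gv v lam)) J u) z with hA
  have hexp : 1 ≤ Real.exp (β ^ 2) := Real.one_le_exp (sq_nonneg β)
  have h6 : lam ^ 2 * D0 ≤ Real.exp (β ^ 2) * A := by
    rw [eD0, ← mul_assoc, mul_inv_cancel₀ (by positivity), one_mul]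
    exact h5
  refine h1.trans ?_
  have h7 : k ^ 4 * lam ^ 2 * (-c0 + C * (m (J - 1) + PD +
      ∑ j ∈ Finset.range J, (fun _ : ℕ => τ) j ^ 2 + D0)) ≤
      k ^ 4 * lam ^ 2 * (-(c0 / 2) + C7 * (DS + 1 / (τ ^ 2 * lam) + D0)) :=
    mul_le_mul_of_nonneg_left h4 (by positivity)
  refine h7.trans ?_
  have e1 : k ^ 4 * lam ^ 2 * (-(c0 / 2) + C7 * (DS + 1 / (τ ^ 2 * lam) + D0)) =
      k ^ 4 * (-(c0 / 2) * lam ^ 2 + C7 * (lam ^ 2 * D0 + lam ^ 2 * (1 / (τ ^ 2 * lam) + DS))) := by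
    ring
  rw [e1]
  refine mul_le_mul_of_nonneg_left ?_ (by positivity)
  have h8 : lam ^ 2 * (1 / (τ ^ 2 * lam) + DS) ≤
      Real.exp (β ^ 2) * (lam ^ 2 * (1 / (τ ^ 2 * lam) + DS)) :=
    le_mul_of_one_le_left (by positivity) hexp
  have h9 := mul_le_mul_of_nonneg_left (add_le_add h6 h8) hC7.le
  have e2 : C7 * (Real.exp (β ^ 2) * A + Real.exp (β ^ 2) *
      (lam ^ 2 * (1 / (τ ^ 2 * lam) + DS))) =
      C7 * Real.exp (β ^ 2) * (A + lam ^ 2 * (1 / (τ ^ 2 * lam) + DS)) := by ring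
  rw [e2] at h9
  linarith

end Vale.Agent.P146.H401
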