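import Vale.Agent.P146.H784.SkRow
import Vale.Agent.P146.R3.H501.Tr2

/-!
Row (K6) of the all-beta text: the deep root averages of the system without the couplings of the
site `b` are at most a constant times the averages of the full system over a Gaussian row `b`.
-/

open MeasureTheory ProbabilityTheory

namespace Vale.Agent.P146.H401

open Vale.Agent.P157.Lv Vale.Agent.P157.Lv.Sy Vale.Agent.P146.H425 Vale.Agent.P146.R1
  Vale.Agent.P146.H325 Vale.Agent.P146.H332 Vale.Agent.P146.R1C Vale.Agent.P146.H784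
open Vale.Agent.P146.H327 (Sb)

set_option linter.unusedSectionVars false

section row

variable {n : ℕ} {b : Fin n} {k c c0 x : ℝ} {m σ : ℕ → ℝ} {J : ℕ} {z : Pair n → ℝ}

/-- the sign of the new spin -/
def gs (e : Bool) : ℝ := if e then 1 else -1

lemma gs_sum (φ : ℝ → ℝ) : ∑ e, φ (gs e) = φ 1 + φ (-1) := by
  simp [gs]

lemma gs_sq (e : Bool) : gs e ^ 2 = 1 := by
  cases e <;> simp [gs]

/-- The row system without external field. -/
noncomputable def RS (b : Fin n) (k c0 : ℝ) (m σ : ℕ → ℝ) (J : ℕ) (z : Pair n → ℝ) :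
    Sy ((Fin (J + 1) × Pair n) ⊕ (Fin (J + 1) × Fin n)) ((Fin n → ℤˣ) × Bool) where
  lev := Sum.elim (fun p => (p.1 : ℕ)) (fun r => (r.1 : ℕ))
  K := J
  m := mS m J
  H ζ y := (DS k (Sb b) m σ J z).H (fun p => ζ (Sum.inl p)) y.1 +
    gs y.2 * (∑ r, al k c0 σ J b y.1 r * ζ (Sum.inr r) + 0 *
      ∑ l ∈ Finset.univ.erase b, (0 : Fin n → ℝ) l * H325.sp y.1 l)

/-- The energy without the row. -/
noncomputable def H0 (b : Fin n) (k : ℝ) (m σ : ℕ → ℝ) (J : ℕ) (z : Pair n → ℝ)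
    (ζ : (Fin (J + 1) × Pair n) ⊕ (Fin (J + 1) × Fin n) → ℝ) (y : (Fin n → ℤˣ) × Bool) : ℝ :=
  (DS k (Sb b) m σ J z).H (fun p => ζ (Sum.inl p)) y.1

lemma RS_is : IsSR (RS b k c0 m σ J z) (DS k (Sb b) m σ J z) (fun r => (r.1 : ℕ))
    (al k c0 σ J b) (fun τ => ∑ l ∈ Finset.univ.erase b, (0 : Fin n → ℝ) l * H325.sp τ l) 0 gs where
  ll _ := rfl
  lr _ := rfl
  K := rfl
  m := rfl
  H _ _ _ := rfl

lemma RS_rp (hk : k ≠ 0) (hE : Exs m J x) :
    Rp (RS b k c0 m σ J z) (lz k SkS) (Real.log 2) m σ J (cr J b) (p0r J b c0 (0 / k) 0 z) :=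
  row_rp hk hE gs_sum RS_is

/-- the coordinates of the bulk -/
def cb (J : ℕ) (l : ℕ) (e : Pair n) : (Fin (J + 1) × Pair n) ⊕ (Fin (J + 1) × Fin n) :=
  Sum.inl (cd (Pair n) J l e)

lemma Ps_cb (ζ : (Fin (J + 1) × Pair n) ⊕ (Fin (J + 1) × Fin n) → ℝ) : ∀ l,
    Ps (cb J) σ J (fun _ => z) l ζ =
      Ps (cd (Pair n) J) σ J (fun _ => z) l (fun p => ζ (Sum.inl p))
  | 0 => rfl
  | l + 1 => by
    funext e
    simp only [Ps]
    rw [Ps_cb ζ l]
    rfl

lemma RS0_rp (hE : Exs m J x) :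
    Rp ((RS b k c0 m σ J z).wH (H0 b k m σ J z)) (lz k (Sb b)) (Real.log 2) m σ J (cb J)
      (fun _ => z) where
  reg :=
    { m0 := (DS_reg k (Sb b) z hE σ).m0
      mK := (DS_reg k (Sb b) z hE σ).mK
      mono := (DS_reg k (Sb b) z hE σ).mono
      pos := (DS_reg k (Sb b) z hE σ).pos
      lev := by
        rintro (p | r)
        · exact Nat.lt_succ_iff.1 p.1.isLt
        · exact Nat.lt_succ_iff.1 r.1.isLt
      lip := fun y => lip_inl ((DS_reg k (Sb b) z hE σ).lip y.1) }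
  K := rfl
  m l hl := mS_succ m hl
  inj l _ := by
    intro e e' h
    exact cd_inj _ J l (Sum.inl_injective h)
  lev l hl e := cd_lev hl e
  dep _ _ _ := rfl
  top ζ := by
    rw [Ps_cb]
    have h1 : ∑ y : (Fin n → ℤˣ) × Bool, Real.exp (H0 b k m σ J z ζ y) =
        2 * Zp k (Sb b) (Ps (cd (Pair n) J) σ J (fun _ => z) J (fun p => ζ (Sum.inl p))) := by
      rw [Fintype.sum_prod_type]
      unfold Zp
      rw [Finset.mul_sum]
      refine Finset.sum_congr rfl fun τ _ => ?_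
      simp only [H0, Fintype.sum_bool]
      rw [two_mul]
      rfl
    show Real.log (∑ y, Real.exp (H0 b k m σ J z ζ y)) = _
    rw [h1, Real.log_mul two_ne_zero (Zp_pos _ _ _).ne', add_comm]
    rfl

/-- the sum over the spin `b`, with a weight -/
lemma sum_two_w (A B g : (Fin n → ℤˣ) → ℝ) (hA : ∀ τ, A (flp b τ) = A τ)
    (hB : ∀ τ, B (flp b τ) = B τ) (hg : ∀ τ, g (flp b τ) = g τ) :
    ∑ τ, g τ * (Real.exp (A τ + B τ) + Real.exp (A τ - B τ)) =
      2 * ∑ τ, g τ * Real.exp (A τ + H325.sp τ b * B τ) := by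
  have e1 : ∀ τ, Real.exp (A τ + B τ) + Real.exp (A τ - B τ) =
      Real.exp (A τ + H325.sp τ b * B τ) + Real.exp (A τ - H325.sp τ b * B τ) := by
    intro τ
    rcases mul_self_eq_one_iff.1 (sp_mul_self τ b) with h | h <;> rw [h]
    · rw [one_mul]
    · rw [neg_one_mul, sub_neg_eq_add, ← sub_eq_add_neg, add_comm]
  have e2 : ∑ τ, g τ * Real.exp (A τ - H325.sp τ b * B τ) =
      ∑ τ, g τ * Real.exp (A τ + H325.sp τ b * B τ) := by
    rw [← Equiv.sum_comp (flpE b) fun τ => g τ * Real.exp (A τ - H325.sp τ b * B τ)]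
    refine Finset.sum_congr rfl fun τ _ => ?_
    show g (flp b τ) * Real.exp (A (flp b τ) - H325.sp (flp b τ) b * B (flp b τ)) = _
    rw [hA, hB, hg, sp_flp_self, neg_mul, sub_neg_eq_add]
  simp_rw [e1, mul_add]
  rw [Finset.sum_add_distrib, e2]
  ring

/-! ### the averages -/

variable {g : (Fin n → ℤˣ) → ℝ}

lemma av_RS (hk : k ≠ 0) (hg : ∀ τ, g (flp b τ) = g τ)
    (ζ : (Fin (J + 1) × Pair n) ⊕ (Fin (J + 1) × Fin n) → ℝ) :
    (RS b k c0 m σ J z).av (fun _ y => g y.1) ζ =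
      H325.av k SkS g (Ps (cr J b) σ J (p0r J b c0 (0 / k) 0 z) J ζ) := by
  set P := Ps (cr J b) σ J (p0r J b c0 (0 / k) 0 z) J ζ with hP
  set u : Fin n → ℝ := fun j => c0 * ζ (Sum.inr (0, j)) + 0 / k * (0 : Fin n → ℝ) j +
      ∑ i ∈ Finset.range J,
        σ (J - 1 - i) * ζ (Sum.inr (Fin.ofNat (J + 1) (i + 1), j)) with hu
  have h1 : ∀ e ∈ row b, P e = u (oth b e) := fun e he => Ps_row J c0 (0 / k) ζ he J
  set A : (Fin n → ℤˣ) → ℝ := fun τ => k * ∑ e, Sb b e τ * P e with hA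
  set B : (Fin n → ℤˣ) → ℝ := fun τ => k * Br b u τ with hB
  have h2 : ∀ τ, (DS k (Sb b) m σ J z).H (fun p => ζ (Sum.inl p)) τ = A τ := by
    intro τ
    show k * ∑ e, Sb b e τ * Ps (cd (Pair n) J) σ J (fun _ => z) J (fun p => ζ (Sum.inl p)) e = _
    rw [hA]
    simp only
    congr 1
    refine Finset.sum_congr rfl fun e _ => ?_
    by_cases he : e ∈ row b
    · unfold Sb
      rw [if_pos he, zero_mul, zero_mul]
    · rw [hP, Ps_bulk J c0 (0 / k) ζ he J]
  have h3 : ∀ τ, ∑ r, al k c0 σ J b τ r * ζ (Sum.inr r) +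
      0 * ∑ l ∈ Finset.univ.erase b, (0 : Fin n → ℝ) l * H325.sp τ l = B τ := by
    intro τ
    have h4 := sum_al (k := k) (c0 := c0) (σ := σ) (b := b) (w := 0) ζ τ (0 / k)
    rw [show k * (0 / k) = 0 by field_simp] at h4
    exact h4
  have hH : ∀ τ e, (RS b k c0 m σ J z).H ζ (τ, e) = A τ + gs e * B τ := by
    intro τ e
    show (DS k (Sb b) m σ J z).H (fun p => ζ (Sum.inl p)) τ + gs e * (∑ r, al k c0 σ J b τ r *
      ζ (Sum.inr r) + 0 * ∑ l ∈ Finset.univ.erase b, (0 : Fin n → ℝ) l * H325.sp τ l) = _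
    rw [h2, h3]
  have h7 : ∀ g : (Fin n → ℤˣ) → ℝ, (∀ τ, g (flp b τ) = g τ) →
      ∑ y, Real.exp ((RS b k c0 m σ J z).H ζ y) * g y.1 = 2 * ∑ τ, ez k SkS P τ * g τ := by
    intro g hg
    rw [Fintype.sum_prod_type]
    have h6 : ∀ τ, ∑ e, Real.exp ((RS b k c0 m σ J z).H ζ (τ, e)) * g τ =
        g τ * (Real.exp (A τ + B τ) + Real.exp (A τ - B τ)) := by
      intro τ
      simp only [hH]
      rw [← Finset.sum_mul, gs_sum fun t => Real.exp (A τ + t * B τ), one_mul, neg_one_mul,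
        ← sub_eq_add_neg, mul_comm]
    simp_rw [h6]
    rw [sum_two_w (b := b) A B g (fun τ => by simp only [hA, Sb_flp])
      (fun τ => by simp only [hB, Br_flp]) hg]
    congr 1
    refine Finset.sum_congr rfl fun τ _ => ?_
    unfold ez
    rw [en_row τ P u h1, mul_comm]
    congr 2
    simp only [hA, hB]
    ring
  have h8 := h7 (fun _ => 1) fun _ => rfl
  simp only [mul_one] at h8
  unfold Sy.av Sy.gb
  rw [h8]
  simp_rw [div_mul_eq_mul_div]
  rw [← Finset.sum_div, h7 g hg]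
  unfold H325.av Zp
  rw [mul_div_mul_left _ _ two_ne_zero]

lemma av_RS0 (g : (Fin n → ℤˣ) → ℝ)
    (ζ : (Fin (J + 1) × Pair n) ⊕ (Fin (J + 1) × Fin n) → ℝ) :
    ((RS b k c0 m σ J z).wH (H0 b k m σ J z)).av (fun _ y => g y.1) ζ =
      H325.av k (Sb b) g (Ps (cb J) σ J (fun _ => z) J ζ) := by
  rw [Ps_cb]
  set P := Ps (cd (Pair n) J) σ J (fun _ => z) J (fun p => ζ (Sum.inl p)) with hP
  have h7 : ∀ g : (Fin n → ℤˣ) → ℝ,
      ∑ y, Real.exp (H0 b k m σ J z ζ y) * g y.1 = 2 * ∑ τ, ez k (Sb b) P τ * g τ := by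
    intro g
    rw [Fintype.sum_prod_type, Finset.mul_sum]
    refine Finset.sum_congr rfl fun τ _ => ?_
    simp only [H0, Fintype.sum_bool]
    rw [two_mul]
    rfl
  have h8 := h7 fun _ => 1
  simp only [mul_one] at h8
  unfold Sy.av Sy.gb
  show ∑ y, Real.exp (H0 b k m σ J z ζ y) / (∑ y', Real.exp (H0 b k m σ J z ζ y')) * g y.1 = _
  rw [h8]
  simp_rw [div_mul_eq_mul_div]
  rw [← Finset.sum_div, h7 g]
  unfold H325.av Zp
  rw [mul_div_mul_left _ _ two_ne_zero]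

/-- the averages of the row system -/
theorem RS_Ex (hk : k ≠ 0) (hE : Exs m J x) (hg : ∀ τ, g (flp b τ) = g τ) :
    (RS b k c0 m σ J z).Ex (fun _ y => g y.1) =
      ∫ y : Fin n → ℝ, TD (lz k SkS) m σ (H325.av k SkS g) J (put b (c0 • y) z) ∂(gI (Fin n)) := by
  have hR := RS_rp (b := b) (c0 := c0) (z := z) (σ := σ) hk hE
  have hT := hR.T_top (c11_lz k SkS) (f := fun _ y => g y.1) (Nh.snd _) (H325.eg_av k SkS g)
    (fun ζ => av_RS hk hg ζ) (Nat.zero_le _)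
  rw [hR.reg.Ex_eq_T (Nh.snd _)]
  have h1 : ∀ ζ, (RS b k c0 m σ J z).T 0 (fun _ y => g y.1) ζ =
      TD (lz k SkS) m σ (H325.av k SkS g) J (put b (c0 • fun j => ζ (Sum.inr (0, j))) z) := by
    intro ζ
    rw [hT ζ, Nat.sub_zero]
    simp only [Ps]
    congr 1
    unfold p0r
    congr 1
    funext j
    simp
  simp only [h1]
  have hm : Measurable fun y : Fin n → ℝ =>
      TD (lz k SkS) m σ (H325.av k SkS g) J (put b (c0 • y) z) :=
    (eg_TD (c11_lz k SkS) (H325.eg_av k SkS g) J fun j hj => hE.pos j hj).meas.comp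
      ((meas_put b z).comp (by fun_prop))
  exact int_inj (β := (Fin (J + 1) × Pair n) ⊕ (Fin (J + 1) × Fin n))
    (φ := fun j : Fin n => Sum.inr ((0 : Fin (J + 1)), j))
    (fun j j' hj => (Prod.ext_iff.1 (Sum.inr_injective hj)).2) hm

/-- the averages of the system without the row -/
theorem RS0_Ex (hE : Exs m J x) (g : (Fin n → ℤˣ) → ℝ) :
    ((RS b k c0 m σ J z).wH (H0 b k m σ J z)).Ex (fun _ y => g y.1) =
      TD (lz k (Sb b)) m σ (H325.av k (Sb b) g) J z := by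
  have hR := RS0_rp (b := b) (k := k) (c0 := c0) (z := z) (σ := σ) hE
  have hT := hR.T_top (c11_lz k (Sb b)) (f := fun _ y => g y.1) (Nh.snd _) (H325.eg_av k (Sb b) g)
    (fun ζ => av_RS0 g ζ) (Nat.zero_le _)
  rw [hR.reg.Ex_eq_T (Nh.snd _)]
  simp only [hT, Nat.sub_zero, Ps]
  simp

/-- **(K6)** the root averages without the row `b` are at most a constant times the averages over
the Gaussian row. -/
theorem k6 (hk : k ≠ 0) (hE : Exs m J x) (hg : ∀ τ, g (flp b τ) = g τ) (h0 : ∀ τ, 0 ≤ g τ) :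
    TD (lz k (Sb b)) m σ (H325.av k (Sb b) g) J z ≤
      Real.exp (k ^ 2 * (n - 1) * vl c0 σ J J / 2) *
        ∫ y : Fin n → ℝ, TD (lz k SkS) m σ (H325.av k SkS g) J (put b (c0 • y) z) ∂(gI (Fin n)) := by
  rw [← RS_Ex hk hE hg, ← RS0_Ex (c0 := c0) hE g]
  have hR := (RS_rp (b := b) (c0 := c0) (z := z) (σ := σ) hk hE).reg
  have hR0 := (RS0_rp (b := b) (k := k) (c0 := c0) (z := z) (σ := σ) hE).reg
  have key := R3.H501.Tr.Ex_le_add (S := (RS b k c0 m σ J z).wH (H0 b k m σ J z))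
    (H' := (RS b k c0 m σ J z).H) (B := fun e => e.isRight = true)
    (b := fun y => Sum.elim (fun _ => 0) fun r => gs y.2 * al k c0 σ J b y.1 r)
    (v := k ^ 2 * (n - 1) * vl c0 σ J J) hR0 hR (φ := fun _ y => g y.1) (Nh.snd _)
    (fun _ y => h0 y.1)
    (fun ζ y => by
      show (DS k (Sb b) m σ J z).H (fun p => ζ (Sum.inl p)) y.1 +
        gs y.2 * (∑ r, al k c0 σ J b y.1 r * ζ (Sum.inr r) + 0 *
          ∑ l ∈ Finset.univ.erase b, (0 : Fin n → ℝ) l * H325.sp y.1 l) -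
        (DS k (Sb b) m σ J z).H (fun p => ζ (Sum.inl p)) y.1 = _
      rw [Fintype.sum_sum_type]
      simp only [Sum.elim_inl, Sum.elim_inr, zero_mul, Finset.sum_const_zero, add_zero, zero_add,
        add_sub_cancel_left]
      rw [Finset.mul_sum]
      exact Finset.sum_congr rfl fun r _ => by ring)
    (fun y e he => by
      rcases e with p | r
      · rfl
      · exact absurd rfl he)
    (fun y => by
      rw [Fintype.sum_sum_type]
      simp only [Sum.elim_inl, Sum.elim_inr]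
      have e1 : ∀ r, (gs y.2 * al k c0 σ J b y.1 r) ^ 2 = al k c0 σ J b y.1 r ^ 2 := fun r => by
        rw [mul_pow, gs_sq, one_mul]
      simp only [e1]
      rw [al_sq b.pos y.1]
      simp)
    (fun y ζ ζ' h => by
      show (DS k (Sb b) m σ J z).H (fun p => ζ (Sum.inl p)) y.1 =
        (DS k (Sb b) m σ J z).H (fun p => ζ' (Sum.inl p)) y.1
      congr 1
      funext p
      exact h (Sum.inl p) (by simp))
    (fun _ _ _ _ => rfl)
  exact key

/-- **(K6)** in the letters of the bulk: the row has the variance one. -/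
theorem k6_AvP (hk : k ≠ 0) (hE : Exs m J x) (hg : ∀ τ, g (flp b τ) = g τ) (h0 : ∀ τ, 0 ≤ g τ)
    (hσ : ∑ j ∈ Finset.range J, σ j ^ 2 ≤ 1) (hkn : k ^ 2 * n ≤ c) :
    TD (lz k (Sb b)) m σ (H325.av k (Sb b) g) J z ≤
      Real.exp c * AvP 1 (row b) (fun u => TD (lz k SkS) m σ (H325.av k SkS g) J u) z := by
  have hn : (1 : ℝ) ≤ n := by exact_mod_cast b.pos
  have heg : EG fun u => TD (lz k SkS) m σ (H325.av k SkS g) J u :=
    eg_TD (c11_lz k SkS) (H325.eg_av k SkS g) J fun j hj => hE.pos j hj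
  have h1 := k6 (c0 := 1) (z := z) (σ := σ) hk hE hg h0
  rw [AvP_row heg]
  simp only [Real.sqrt_one]
  have hpos : 0 ≤ ∫ y : Fin n → ℝ, TD (lz k SkS) m σ (H325.av k SkS g) J (put b ((1 : ℝ) • y) z)
      ∂(gI (Fin n)) := by
    rw [← RS_Ex hk hE hg]
    have hR := (RS_rp (b := b) (c0 := 1) (z := z) (σ := σ) hk hE).reg
    rw [← hR.Ex_const 0]
    exact hR.Ex_mono (fun _ => EG.const 0) (Nh.snd _) fun _ y => h0 y.1
  refine h1.trans (mul_le_mul_of_nonneg_right (Real.exp_le_exp.2 ?_) hpos)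
  have hv : vl 1 σ J J = 1 + ∑ j ∈ Finset.range J, σ j ^ 2 := by
    unfold vl
    rw [one_pow, Finset.sum_range_reflect (fun j => σ j ^ 2) J]
  rw [hv]
  have h2 : k ^ 2 * ((n : ℝ) - 1) ≤ c :=
    (mul_le_mul_of_nonneg_left (by linarith) (sq_nonneg k)).trans hkn
  have h3 : 0 ≤ k ^ 2 * ((n : ℝ) - 1) := mul_nonneg (sq_nonneg k) (by linarith)
  have h4 : 0 ≤ ∑ j ∈ Finset.range J, σ j ^ 2 := Finset.sum_nonneg fun _ _ => sq_nonneg _
  nlinarith

end row

end Vale.Agent.P146.H401
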